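import Vale.Agent.P096.Main

/-! Definitions for the general case of the perturbation theorem. -/

set_option linter.unusedSectionVars false

namespace Vale.Agent.P096b

open Filter Topology Vale.Agent.P096
open scoped InnerProductSpace ComplexConjugate

universe u v

section Basic

variable {H : Type u} [NormedAddCommGroup H] [InnerProductSpace ℂ H] [CompleteSpace H]

/-- A linear map from `A` to `N` close to the inclusion. -/
def Lift (A N : Alg H) (ε : ℝ) : Prop := ∃ Φ : Op H → Op H,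
  (∀ x ∈ A, ∀ y ∈ A, Φ (x + y) = Φ x + Φ y) ∧ (∀ (c : ℂ), ∀ x ∈ A, Φ (c • x) = c • Φ x) ∧
    ∀ x ∈ A, Φ x ∈ N ∧ ‖Φ x - x‖ ≤ ε * ‖x‖

/-- Cyclic vectors. -/
def Cyc (A : Alg H) (ξ : H) : Prop := ∀ η : H, ∀ ε : ℝ, 0 < ε → ∃ x ∈ A, ‖x ξ - η‖ < ε

/-- The commutant. -/
noncomputable def cm (S : Set (Op H)) : Alg H := StarSubalgebra.centralizer ℂ S

theorem mem_cm {S : Set (Op H)} {x : Op H} :
    x ∈ cm S ↔ ∀ y ∈ S, x * y = y * x ∧ x * star y = star y * x := by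
  rw [cm, StarSubalgebra.mem_centralizer_iff]
  exact forall₂_congr fun _ _ => and_congr eq_comm eq_comm

theorem mem_cm' {S : Set (Op H)} (hS : ∀ y ∈ S, star y ∈ S) {x : Op H} :
    x ∈ cm S ↔ ∀ y ∈ S, x * y = y * x :=
  mem_cm.trans ⟨fun h y hy => (h y hy).1, fun h y hy => ⟨h y hy, h _ (hS y hy)⟩⟩

theorem mem_cm_alg {A : Alg H} {x : Op H} :
    x ∈ cm (A : Set (Op H)) ↔ ∀ y ∈ A, x * y = y * x :=
  mem_cm' fun _ hy => star_mem (s := A) hy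

theorem cp_cm (S : Set (Op H)) : CP (cm S) (cm (cm S : Set (Op H))) := by
  refine ⟨fun x => ⟨fun hx y hy => (mem_cm_alg.1 hy x hx).symm, fun h => mem_cm.2 fun y hy => ?_⟩,
    fun y => mem_cm_alg⟩
  exact ⟨h y (mem_cm_alg.2 fun w hw => (mem_cm.1 hw y hy).1.symm),
    h _ (mem_cm_alg.2 fun w hw => (mem_cm.1 hw y hy).2.symm)⟩

theorem sub_cm_cm {S : Set (Op H)} {y : Op H} (hy : y ∈ S) : y ∈ cm (cm S : Set (Op H)) :=
  mem_cm_alg.2 fun _ hw => (mem_cm.1 hw y hy).1.symm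

/-- Conjugation of an operator by an antiunitary involution. -/
noncomputable def jc (J : H ≃ₗᵢ⋆[ℂ] H) (x : Op H) : Op H :=
  (J.toContinuousLinearEquiv : H →L⋆[ℂ] H).comp
    (x.comp (J.toContinuousLinearEquiv : H →L⋆[ℂ] H))

@[simp] theorem jc_apply (J : H ≃ₗᵢ⋆[ℂ] H) (x : Op H) (η : H) : jc J x η = J (x (J η)) := rfl

/-- Pairs of unitaries. -/
abbrev UU (H : Type u) [NormedAddCommGroup H] [InnerProductSpace ℂ H] [CompleteSpace H] :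
    Type u := unitary (Op H) × unitary (Op H)

end Basic

/-! ### Invariant means -/

/-- A left invariant mean on the bounded functions. -/
structure Mean (G : Type v) [Group G] where
  m : (G → ℂ) →ₗ[ℂ] ℂ
  one : m (fun _ => 1) = 1
  le : ∀ (f : G → ℂ) (C : ℝ), (∀ g, ‖f g‖ ≤ C) → ‖m f‖ ≤ C
  inv : ∀ (f : G → ℂ) (C : ℝ) (a : G), (∀ g, ‖f g‖ ≤ C) → m (fun g => f (a * g)) = m f

/-! ### Bounded functional calculus -/

/-- Bounded continuous functions. -/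
def BC (f : ℝ → ℂ) : Prop := Continuous f ∧ ∃ C : ℝ, ∀ κ, ‖f κ‖ ≤ C

/-- The characters. -/
noncomputable def ex (t κ : ℝ) : ℂ := Complex.exp (Complex.I * t * κ)

/-- The function `(1 + e ^ κ) ^ (-1/2)`. -/
noncomputable def cf (κ : ℝ) : ℂ := (√(1 + Real.exp κ)⁻¹ : ℝ)

/-- The function `(1 + e ^ (-κ)) ^ (-1/2)`. -/
noncomputable def sf (κ : ℝ) : ℂ := cf (-κ)

/-- Tilted Gaussian symbols. -/
noncomputable def gs (ε κ₀ θ κ : ℝ) : ℂ := (Real.exp (-ε * (κ - κ₀) ^ 2 + θ * (κ - κ₀)) : ℝ)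

/-- The normalized Gaussian density. -/
noncomputable def gd (ε t : ℝ) : ℝ := (√(4 * Real.pi * ε))⁻¹ * Real.exp (-t ^ 2 / (4 * ε))

/-- The kernels of the tilted Gaussian symbols. -/
noncomputable def gk (ε κ₀ θ t : ℝ) : ℂ := ((√(4 * Real.pi * ε))⁻¹ : ℝ) *
  Complex.exp (-(t + Complex.I * θ) ^ 2 / (4 * ε) - Complex.I * κ₀ * t)

/-- The Fourier transform in our normalization. -/
noncomputable def ft (k : ℝ → ℂ) (κ : ℝ) : ℂ := ∫ t, k t * ex t κ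

/-- The bounded continuous functional calculus of a self-adjoint operator. -/
structure Calc (H : Type u) [NormedAddCommGroup H] [InnerProductSpace ℂ H] [CompleteSpace H] where
  F : (ℝ → ℂ) → Op H
  one : F (fun _ => 1) = 1
  add : ∀ {f g : ℝ → ℂ}, BC f → BC g → F (fun κ => f κ + g κ) = F f + F g
  smul : ∀ {f : ℝ → ℂ} (c : ℂ), BC f → F (fun κ => c * f κ) = c • F f
  mul : ∀ {f g : ℝ → ℂ}, BC f → BC g → F (fun κ => f κ * g κ) = F f * F g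
  star : ∀ {f : ℝ → ℂ}, BC f → F (fun κ => conj (f κ)) = star (F f)
  tight : ∀ (η : H) (ε : ℝ), 0 < ε → ∃ f, BC f ∧ HasCompactSupport f ∧ ‖F f η - η‖ < ε

section Modular

variable {H : Type u} [NormedAddCommGroup H] [InnerProductSpace ℂ H] [CompleteSpace H]

/-- The unitary group. -/
noncomputable def Calc.U (Φ : Calc H) (t : ℝ) : Op H := Φ.F (ex t)

/-- The flow on operators. -/
noncomputable def Calc.σ (Φ : Calc H) (t : ℝ) (x : Op H) : Op H := Φ.U t * x * Φ.U (-t)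

open Classical in
/-- The weak integral of the orbit of an operator against a kernel. -/
noncomputable def Calc.filt (Φ : Calc H) (k : ℝ → ℂ) (x : Op H) : Op H :=
  if h : ∃ y : Op H, ∀ η, y η = ∫ t, k t • Φ.σ t x η then h.choose else 0

/-- The polar decomposition of the closure of `x ξ ↦ x* ξ`. -/
structure Pre (A : Alg H) (ξ : H) extends Calc H where
  J : H ≃ₗᵢ⋆[ℂ] H
  JJ : ∀ η, J (J η) = η
  JF : ∀ {f : ℝ → ℂ}, BC f → ∀ η, J (F f η) = F (fun κ => conj (f (-κ))) (J η)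
  graph : ∀ x ∈ A, F sf (x ξ) = F cf (J (Star.star x ξ))
  core : ∀ (γ : H) (ε : ℝ), 0 < ε →
    ∃ x ∈ A, ‖x ξ - F cf γ‖ < ε ∧ ‖J (Star.star x ξ) - F sf γ‖ < ε

/-- The modular objects of a cyclic and separating vector. -/
structure Mod (A B : Alg H) (ξ : H) extends Pre A ξ where
  cp : CP A B
  cycA : Cyc A ξ
  cycB : Cyc B ξ
  jA : ∀ x ∈ A, jc J x ∈ B
  jB : ∀ y ∈ B, jc J y ∈ A
  uA : ∀ t, ∀ x ∈ A, toCalc.σ t x ∈ A

/-- A conjugation with the positivity property. -/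
structure Cj (A B : Alg H) (ξ : H) where
  J : H ≃ₗᵢ⋆[ℂ] H
  JJ : ∀ η, J (J η) = η
  fix : J ξ = ξ
  jA : ∀ x ∈ A, jc J x ∈ B
  jB : ∀ y ∈ B, jc J y ∈ A
  pos : ∀ x ∈ A, x ≠ 0 → 0 < (⟪J (star x ξ), x ξ⟫_ℂ).re

/-- A vector pinned by a locally finite group of matched unitaries. -/
structure Pin (A B : Alg H) (ξ : H) (Γ : ℕ → Subgroup (UU H)) : Prop where
  cp : CP A B
  cycA : Cyc A ξ
  cycB : Cyc B ξ
  norm : ‖ξ‖ = 1
  mono : Monotone Γ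
  fin : ∀ n, Finite (Γ n)
  memA : ∀ n, ∀ γ ∈ Γ n, (γ.1 : Op H) ∈ A
  memB : ∀ n, ∀ γ ∈ Γ n, (γ.2 : Op H) ∈ B
  fix : ∀ n, ∀ γ ∈ Γ n, (γ.1 : Op H) ((γ.2 : Op H) ξ) = ξ
  irrA : ∀ x ∈ A, (∀ n, ∀ γ ∈ Γ n, (γ.1 : Op H) * x = x * γ.1) → x ∈ B
  irrB : ∀ y ∈ B, (∀ n, ∀ γ ∈ Γ n, (γ.2 : Op H) * y = y * γ.2) → y ∈ A

/-- Both pairs are pinned by the same data and have the same centre. -/
structure Pin2 (A B N D : Alg H) (ξ : H) (Γ : ℕ → Subgroup (UU H)) : Prop where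
  left : Pin A B ξ Γ
  right : Pin N D ξ Γ
  cen : ∀ z, (z ∈ A ∧ z ∈ B) ↔ (z ∈ N ∧ z ∈ D)

theorem Pin2.symm {A B N D : Alg H} {ξ : H} {Γ : ℕ → Subgroup (UU H)} (h : Pin2 A B N D ξ Γ) :
    Pin2 N D A B ξ Γ := ⟨h.right, h.left, fun z => (h.cen z).symm⟩

/-- The averaged positivity condition for a unitary `Y`. -/
def Avg (Φ : Calc H) (Y : Op H) : Prop := ∃ S : ℝ, ∀ ε : ℝ, 0 < ε →
  ∃ (n : ℕ) (p s : Fin n → ℝ), (∀ j, 0 ≤ p j) ∧ ∑ j, p j = 1 ∧ (∀ j, s j ∈ Set.Icc 0 S) ∧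
    ∀ η : H, 3 / 4 * ‖Φ.F (gs ε 0 0) η‖ ^ 2 - ‖η‖ ^ 2 / 100 ≤
      ∑ j, p j * (⟪Φ.F (gs ε 0 0) η, Φ.σ (-s j) Y (Φ.F (gs ε 0 0) η)⟫_ℂ).re

end Modular

/-! ### The levels of the reduction -/

/-- The lifting property under an extra assumption. -/
def LiftIf (P : ∀ (H : Type u) [NormedAddCommGroup H] [InnerProductSpace ℂ H] [CompleteSpace H],
    Alg H → Alg H → Alg H → Alg H → Prop) : Prop :=
  ∀ ε : ℝ, 0 < ε → ∃ δ : ℝ, 0 < δ ∧ ∀ (H : Type u) [NormedAddCommGroup H]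
    [InnerProductSpace ℂ H] [CompleteSpace H] (A B N D : Alg H), CP A B → CP N D →
    Close A N δ → P H A B N D → Lift A N ε

def LiftAll : Prop := LiftIf.{u} fun _ _ _ _ _ _ _ _ => True

def LiftSep : Prop := LiftIf.{u} fun H _ _ _ _ _ _ _ => TopologicalSpace.SeparableSpace H

def LiftCyc : Prop := LiftIf.{u} fun H _ _ _ _ _ _ D =>
  TopologicalSpace.SeparableSpace H ∧ ∃ η : H, Cyc D η

def LiftStd : Prop := LiftIf.{u} fun H _ _ _ _ _ N D =>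
  TopologicalSpace.SeparableSpace H ∧ ∃ ξ : H, Cyc N ξ ∧ Cyc D ξ

def LiftPin : Prop := LiftIf.{u} fun H _ _ _ _ _ N D =>
  ∃ (ξ : H) (Γ : ℕ → Subgroup (UU H)), Pin N D ξ Γ

def LiftPin2 : Prop := LiftIf.{u} fun H _ _ _ A B N D =>
  ∃ (ξ : H) (Γ : ℕ → Subgroup (UU H)), Pin2 A B N D ξ Γ

def LiftMod : Prop := LiftIf.{u} fun H _ _ _ A _ N D =>
  ∃ (ξ : H) (μ : Mod N D ξ), ∀ t, ∀ x ∈ A, μ.σ t x ∈ A

/-! ### Stages of the construction of a pinned vector -/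

/-- A stage of the construction. -/
structure Stage {H₀ : Type u} [NormedAddCommGroup H₀] [InnerProductSpace ℂ H₀] [CompleteSpace H₀]
    (D₀ : Alg H₀) where
  H : Type u
  [i1 : NormedAddCommGroup H]
  [i2 : InnerProductSpace ℂ H]
  [i3 : CompleteSpace H]
  [i4 : TopologicalSpace.SeparableSpace H]
  N : Alg H
  D : Alg H
  cp : CP N D
  ξ : H
  norm : ‖ξ‖ = 1
  cycN : Cyc N ξ
  cycD : Cyc D ξ
  π : Op H₀ →⋆ₐ[ℂ] Op H
  j : H₀ →ₗᵢ[ℂ] H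
  πj : ∀ x η, π x (j η) = j (x η)
  Λ : Subgroup (unitary (Op H))
  finΛ : Finite Λ
  comm : ∀ l ∈ Λ, ∀ x, (l : Op H) * π x = π x * l
  gen : ∀ x, x ∈ N ↔ (∀ y ∈ D₀, x * π y = π y * x) ∧ ∀ l ∈ Λ, x * (l : Op H) = l * x
  Γ : Subgroup (UU H)
  finΓ : Finite Γ
  memN : ∀ γ ∈ Γ, (γ.1 : Op H) ∈ N
  memD : ∀ γ ∈ Γ, (γ.2 : Op H) ∈ D
  fix : ∀ γ ∈ Γ, (γ.1 : Op H) ((γ.2 : Op H) ξ) = ξ
  dbl : ∀ x ∈ N, (∀ γ ∈ Γ, (γ.1 : Op H) * x = x * γ.1) →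
    (∀ c ∈ N, (∀ γ ∈ Γ, (γ.1 : Op H) * c = c * γ.1) → x * c = c * x) → x ∈ D

attribute [instance] Stage.i1 Stage.i2 Stage.i3 Stage.i4

section Stage

variable {H₀ : Type u} [NormedAddCommGroup H₀] [InnerProductSpace ℂ H₀] [CompleteSpace H₀]
  {D₀ : Alg H₀}

/-- The relative commutant of the group. -/
def Stage.C (S : Stage D₀) (x : Op S.H) : Prop :=
  x ∈ S.N ∧ ∀ γ ∈ S.Γ, (γ.1 : Op S.H) * x = x * γ.1

/-- The span of the vectors `g h η - η`. -/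
def Stage.Mv (S : Stage D₀) : Submodule ℂ S.H :=
  Submodule.span ℂ {v | ∃ γ ∈ S.Γ, ∃ η, v = (γ.1 : Op S.H) ((γ.2 : Op S.H) η) - η}

/-- The conjugation exchanges the members of the pairs. -/
def Stage.Ok (S : Stage D₀) (κ : Cj S.N S.D S.ξ) : Prop :=
  ∀ γ ∈ S.Γ, (γ.2 : Op S.H) = jc κ.J γ.1

/-- Extensions of stages. -/
structure Ext (S T : Stage D₀) where
  ι : S.H →ₗᵢ[ℂ] T.H
  α : Op S.H →⋆ₐ[ℂ] Op T.H
  αι : ∀ x η, α x (ι η) = ι (x η)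
  mapN : ∀ x ∈ S.N, α x ∈ T.N
  mapD : ∀ y ∈ S.D, α y ∈ T.D
  π : ∀ x, T.π x = α (S.π x)
  j : ∀ η, T.j η = ι (S.j η)
  mapΛ : ∀ l ∈ S.Λ, ∃ l' ∈ T.Λ, (l' : Op T.H) = α l
  mapΓ : ∀ γ ∈ S.Γ, ∃ γ' ∈ T.Γ, (γ'.1 : Op T.H) = α γ.1 ∧ (γ'.2 : Op T.H) = α γ.2

/-- The identity extension. -/
noncomputable def Ext.refl (S : Stage D₀) : Ext S S where
  ι := .id
  α := .id ℂ _
  αι _ _ := rfl
  mapN _ h := h
  mapD _ h := h
  π _ := rfl
  j _ := rfl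
  mapΛ l h := ⟨l, h, rfl⟩
  mapΓ γ h := ⟨γ, h, rfl, rfl⟩

/-- Composition of extensions. -/
noncomputable def Ext.trans {S T R : Stage D₀} (e : Ext S T) (f : Ext T R) : Ext S R where
  ι := f.ι.comp e.ι
  α := f.α.comp e.α
  αι x η := by simp [f.αι, e.αι]
  mapN x h := f.mapN _ (e.mapN x h)
  mapD x h := f.mapD _ (e.mapD x h)
  π x := by simp [f.π, e.π]
  j η := by simp [f.j, e.j]
  mapΛ l h := by
    obtain ⟨l', h1, h2⟩ := e.mapΛ l h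
    obtain ⟨l'', h3, h4⟩ := f.mapΛ l' h1
    exact ⟨l'', h3, by simp [h4, h2]⟩
  mapΓ γ h := by
    obtain ⟨γ', h1, h2, h2'⟩ := e.mapΓ γ h
    obtain ⟨γ'', h3, h4, h4'⟩ := f.mapΓ γ' h1
    exact ⟨γ'', h3, by simp [h4, h2], by simp [h4', h2']⟩

theorem Ext.mapMv {S T : Stage D₀} (e : Ext S T) {v : S.H} (h : v ∈ S.Mv) : e.ι v ∈ T.Mv := by
  induction h using Submodule.span_induction with
  | mem v hv =>
    obtain ⟨γ, h1, η, rfl⟩ := hv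
    obtain ⟨γ', h2, h3, h4⟩ := e.mapΓ γ h1
    exact Submodule.subset_span ⟨γ', h2, e.ι η, by rw [h3, h4, e.αι, e.αι, map_sub]⟩
  | zero => simp
  | add _ _ _ _ h1 h2 => rw [map_add]; exact add_mem h1 h2
  | smul c _ _ h1 => rw [map_smul]; exact T.Mv.smul_mem c h1

end Stage

end Vale.Agent.P096b
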